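import Vale.Agent.P224.PO.R13.Id
import Vale.Agent.P224.PO.R13.Law
import Vale.Agent.P224.PO.LvO
import Vale.Agent.P224.PO.LawK2

/-!
The volume bound in dimension 13.
-/

namespace Vale.Agent.P224.PO.R13

open MeasureTheory Set Filter Function Module Vale.Agent.P224 Vale.Agent.P224.UE
  Vale.Agent.P224.POS Vale.Agent.P224.PO
open Vale.Agent.P224.SM2 hiding ker
open scoped Topology RealInnerProductSpace ENNReal ContDiff Manifold

set_option linter.unusedSectionVars false

/-- the value of the rows -/
def qv : PE := PE.add (PE.add (PE.c (-40305913536)) (PE.mul (PE.c 3217406304) (PE.v 0)))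
  (PE.mul (PE.c 29127965664) (PE.v 1))

set_option maxRecDepth 100000 in
lemma qv_chk : chk [] (PE.sub (lvO 13 rows) qv) = true := by decide +kernel

lemma hval_rows (u r : ℝ) : hval 13 (rlH 23089744183296 rows) u r
    = -(4284217 / 34359738368) + (4787807 / 481036337152) * u + (43345187 / 481036337152) * r := by
  rw [hval_eq (by norm_num) qv_chk]
  unfold qv
  simp only [PE.ev_add, PE.ev_mul, PE.ev_c, PE.ev_v]
  have e0 : ([u, r] : List ℝ).getD 0 0 = u := rfl
  have e1 : ([u, r] : List ℝ).getD 1 0 = r := rfl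
  rw [e0, e1]
  push_cast
  ring

section

variable {V W M : Type*} [NormedAddCommGroup V] [InnerProductSpace ℝ V] [FiniteDimensional ℝ V]
  [NormedAddCommGroup W] [InnerProductSpace ℝ W] [FiniteDimensional ℝ W]
  [TopologicalSpace M] [ChartedSpace V M]
  [MeasurableSpace V] [BorelSpace V] [MeasurableSpace M] [BorelSpace M]
  [IsManifold 𝓘(ℝ, V) ∞ M] [CompactSpace M] [T2Space M] [ConnectedSpace M]
  [MeasurableSpace W] [BorelSpace W]

/-- **The volume bound in dimension 13.** -/
theorem main (hV : finrank ℝ V = 13) (hW : finrank ℝ W = finrank ℝ V + 2)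
    {F : M → W} (hF : SphImm V F) (hmin : ∀ x n, IsUnitNormal V F x n → meanCurv V F x n = 0)
    (hng : ¬ ∃ a : W, a ≠ 0 ∧ ∀ x, ⟪F x, a⟫ = 0) :
    ENNReal.ofReal (9997 / 10000 * leastClifford 13) ≤ volM V F univ := by
  refine le_trans (ENNReal.ofReal_le_ofReal ?_) (main13_of_certRK (c := 331 / 130) (κ := 0)
    (ρ := 8775585 / 2147483648) (C := 14412684897 / 10000000000) (b0 := 1) (b1 := 4366547131 / 8589934592) (b2 := -(106678572265 / 34359738368)) (b3 := 648076635 / 268435456)
    (b4 := -(42282606561 / 34359738368)) (b5 := 1756044177 / 8589934592) (b6 := 0)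
    (b7 := 17422119705 / 34359738368) (b8 := 0)
    hV hW hF hmin hng (by norm_num) (by norm_num) (by norm_num) (by norm_num) (by norm_num) rows_ok
    (fun e x N y w he hx hN hy hw hxN hyw hs => ?_) ?_)
  · have := clifford_le
    linarith
  · have h := hpos e x N y w he hx hN hy hw hxN hyw hs
    unfold Vale.Agent.P224.UE.W9 XF at h
    unfold Vale.Agent.P224.UE.W9 RF
    linarith
  · intro Θ u r h1 h2 hu hT hr1 hr2
    have h := law_neg h1 h2.le hu hT hr1 hr2 rfl
    rw [hval_rows]
    refine lt_of_eq_of_lt ?_ h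
    ring

end

end Vale.Agent.P224.PO.R13
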